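import Vale.Agent.P032.Cert.Clauses

/-!
P032: computer-generated certificate `RimTriple`: 34 clauses with reasons and 22 propagation steps.
-/

namespace Vale.Agent.P032.Cert.RimTriple

set_option maxRecDepth 20000

/-- The configuration. -/
def ctx : Ctx where
  root := .triple
  pts := [⟨36, 0, 0, 0⟩,
    ⟨-18, 0, -18, 0⟩,
    ⟨18, 0, -18, 0⟩]
  given := [[pos (vS 0 0 true 3)],
    [neg (vS 0 0 true 4)],
    [pos (vS 0 0 false 4)],
    [neg (vS 0 0 false 3)],
    [pos (vN 1)],
    [pos (vN 2)],
    [pos (vN 3)],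
    [pos (vN 4)],
    [pos (vN 5)],
    [pos (vN 6)],
    [pos (vM 1 3)],
    [pos (vM 1 4)],
    [pos (vM 2 3)],
    [pos (vM 2 4)],
    [pos (vM 3 3)],
    [pos (vM 3 4)],
    [pos (vM 4 3)],
    [pos (vM 4 4)],
    [pos (vM 5 3)],
    [pos (vM 5 4)],
    [pos (vM 6 3)],
    [pos (vM 6 4)],
    [pos (vM 1 0)],
    [neg (vM 1 1)],
    [neg (vM 1 2)],
    [pos (vM 1 3)],
    [pos (vM 1 4)],
    [neg (vM 2 0)],
    [pos (vM 2 1)],
    [pos (vM 2 2)],
    [pos (vM 2 3)],
    [pos (vM 2 4)]]

/-- The numbered statements. -/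
noncomputable def vars : Table :=
(.node (.node (.node (.node (.node (.node (.leaf 275)
(.leaf 521))
(.leaf 2720))
(.node (.leaf 4272)
(.leaf 4800)))
(.node (.node (.leaf 531)
(.leaf 2754))
(.node (.leaf 2448)
(.leaf 264))))
(.node (.node (.node (.leaf 176)
(.leaf 2752))
(.node (.leaf 51)
(.leaf 4770)))
(.node (.node (.leaf 563)
(.leaf 4752))
(.node (.leaf 2688)
(.leaf 517)))))
(.node (.node (.node (.node (.leaf 291)
(.leaf 2736))
(.node (.leaf 4288)
(.leaf 4754)))
(.node (.node (.leaf 547)
(.leaf 4736))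
(.node (.leaf 2464)
(.leaf 265))))
(.node (.node (.node (.leaf 515)
(.leaf 2738))
(.node (.leaf 67)
(.leaf 261)))
(.node (.node (.leaf 579)
(.leaf 4768))
(.node (.leaf 2704)
(.leaf 520))))))

/-- The clauses. -/
noncomputable def table : Table :=
(.node (.node (.node (.node (.node (.node (.leaf 9)
(.leaf 1507370))
(.node (.leaf 1376296)
(.leaf 63)))
(.node (.node (.leaf 44730900971072658084397120)
(.leaf 48))
(.leaf 2228252)))
(.node (.node (.node (.leaf 1179654)
(.leaf 52))
(.node (.leaf 11)
(.leaf 31)))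
(.node (.node (.leaf 44730900970509708130975808)
(.leaf 50))
(.leaf 8))))
(.node (.node (.node (.node (.leaf 196662)
(.leaf 54))
(.node (.leaf 5348097573453845)
(.leaf 30)))
(.node (.node (.leaf 2687014)
(.leaf 19))
(.leaf 2555940)))
(.node (.node (.node (.leaf 279177003070)
(.leaf 59))
(.node (.leaf 3342382)
(.leaf 26)))
(.node (.node (.leaf 61)
(.leaf 38))
(.leaf 24)))))
(.node (.node (.node (.node (.node (.leaf 2097178)
(.leaf 295151845880567038018))
(.node (.leaf 65588)
(.leaf 43)))
(.node (.node (.leaf 253406806072)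
(.leaf 40))
(.leaf 13)))
(.node (.node (.node (.leaf 2883614)
(.leaf 46))
(.node (.leaf 2)
(.leaf 28)))
(.node (.node (.leaf 3276820)
(.leaf 42))
(.leaf 3473456))))
(.node (.node (.node (.node (.leaf 498069126877460627516)
(.leaf 58))
(.node (.leaf 15)
(.leaf 33)))
(.node (.node (.leaf 4)
(.leaf 36))
(.leaf 5)))
(.node (.node (.node (.leaf 12884967482)
(.leaf 18))
(.node (.leaf 55)
(.leaf 0)))
(.node (.node (.leaf 59238232170754852545560640)
(.leaf 66))
(.leaf 22))))))

private lemma core0 {C : Cover} {τ : Bool → ℝ} (hg : Good C ctx τ) (hy : Hyp C ctx τ)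
    (h : SatBelow (renum (Val C ctx τ) vars) table 0) :
    SatBelow (renum (Val C ctx τ) vars) table 34 :=
  satBelow_of_coreFrom hg hy vars table [.given 28,
    .exact 1 1 2 1 true 1,
    .limit 2 2 true 2 1,
    .tripleOne 1 1 true 1 2,
    .exact 0 0 0 2 true 3,
    .exact 2 1 2 2 true 0,
    .nodeKinds 2,
    .atLeast 1 0 [1, 2],
    .quadTwo 2 1 true 0 1,
    .nodeKinds 1,
    .sampleSome 2 1 true 4,
    .given 24,
    .quadTwo 2 1 true 0 2,
    .exact 0 2 2 2 true 4,
    .given 5,
    .quadTwo 2 2 true 0 3,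
    .limit 2 1 true 3 0,
    .limit 2 2 true 1 1,
    .tripleOne 0 2 true 3 4,
    .given 13,
    .given 29,
    .given 23,
    .sampleSome 2 2 true 1,
    .given 4,
    .exact 1 1 2 1 true 2,
    .given 12,
    .sampleSome 2 1 true 3,
    .given 0,
    .given 27,
    .sampleSome 2 2 true 2,
    .rootM 4,
    .rootM 3,
    .limit 2 1 true 4 0,
    .atMost 2 1 [1, 2, 3, 4]] 0 h (by decide +kernel)

private lemma step0 {v : ℕ → Prop} (h : SatBelow v table 34) :
    SatBelow v table 56 :=
  satBelow_of_checkFrom table [196620,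
    34360524822,
    1179670,
    1507365,
    42952032280,
    327708,
    1966115,
    1114144,
    5348157704110112,
    1769514,
    917547,
    2162719,
    720942,
    627194928117329494017,
    30065754160,
    19343643228858020980916273,
    393266,
    10881199385888236351848499,
    15716902664346753050673203,
    1638452,
    131125,
    4836422707669892402118711] 34 h (by decide +kernel)

/-- No family and samples fit this configuration. -/
theorem refuted {C : Cover} {τ : Bool → ℝ} (hg : Good C ctx τ) (hy : Hyp C ctx τ) : False := by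
  have h : SatBelow (renum (Val C ctx τ) vars) table 0 := fun j hj => absurd hj (Nat.not_lt_zero j)
  replace h := core0 hg hy h
  replace h := step0 h
  exact false_of_empty vars table (n := 55) h (by decide +kernel)

end Vale.Agent.P032.Cert.RimTriple
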