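import Vale.Agent.P032.Cert.Clauses

/-!
P032: computer-generated certificate `SameSix`: 179 clauses with reasons and 89 propagation steps.
-/

namespace Vale.Agent.P032.Cert.SameSix

set_option maxRecDepth 20000

/-- The configuration. -/
def ctx : Ctx where
  root := .quad
  pts := [⟨36, 0, 0, 0⟩,
    ⟨-36, 0, 0, 0⟩,
    ⟨-18, 0, -18, 0⟩,
    ⟨18, 0, -18, 0⟩,
    ⟨-30, 0, 0, -2⟩,
    ⟨-15, 3, -15, -1⟩,
    ⟨-54, 0, -18, 0⟩,
    ⟨-66, 0, 0, -2⟩,
    ⟨-51, 3, -15, -1⟩,
    ⟨-33, 3, -33, -1⟩,
    ⟨-45, 3, -15, -3⟩]
  given := [[neg (vS 0 0 false 4)],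
    [neg (vS 0 0 true 4)],
    [pos (vS 0 0 true 0)],
    [pos (vS 0 0 true 1)],
    [neg (vS 0 0 true 2)],
    [neg (vS 0 0 true 3)],
    [neg (vS 0 0 false 0)],
    [pos (vS 0 0 false 2)],
    [pos (vN 1)],
    [pos (vM 1 0)],
    [pos (vM 1 1)],
    [pos (vM 1 2)],
    [pos (vM 1 3)],
    [neg (vM 1 4)],
    [neg (vN 1), neg (vM 1 4)],
    [neg (vN 2), neg (vM 2 4)],
    [neg (vN 3), neg (vM 3 4)],
    [neg (vN 4), neg (vM 4 4)],
    [neg (vN 5), neg (vM 5 4)],
    [neg (vN 6), neg (vM 6 4)],
    [pos (vN 6)]]

/-- The numbered statements. -/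
noncomputable def vars : Table :=
(.node (.node (.node (.node (.node (.node (.node (.node (.leaf 323)
(.leaf 15936))
(.leaf 10385))
(.node (.leaf 6305)
(.leaf 12704)))
(.node (.node (.node (.leaf 4272)
(.leaf 261))
(.leaf 4512))
(.node (.leaf 8257)
(.leaf 20800))))
(.node (.node (.node (.node (.leaf 1283)
(.leaf 17952))
(.leaf 2432))
(.node (.leaf 8194)
(.leaf 18706)))
(.node (.node (.node (.leaf 6272)
(.leaf 1545))
(.leaf 8512))
(.node (.leaf 10258)
(.leaf 11792)))))
(.node (.node (.node (.node (.node (.leaf 1300)
(.leaf 15922))
(.leaf 19))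
(.node (.leaf 8224)
(.leaf 12722)))
(.node (.node (.node (.leaf 1555)
(.leaf 1286))
(.leaf 8448))
(.node (.leaf 10288)
(.leaf 9760))))
(.node (.node (.node (.node (.leaf 1347)
(.leaf 17938))
(.leaf 2496))
(.node (.leaf 8258)
(.leaf 20736)))
(.node (.node (.leaf 6336)
(.leaf 10544))
(.node (.leaf 10257)
(.leaf 15872))))))
(.node (.node (.node (.node (.node (.node (.leaf 144)
(.leaf 15890))
(.leaf 10417))
(.node (.leaf 8192)
(.leaf 12736)))
(.node (.node (.node (.leaf 4290)
(.leaf 265))
(.leaf 4544))
(.node (.leaf 10256)
(.leaf 9728))))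
(.node (.node (.node (.node (.leaf 1315)
(.leaf 17984))
(.leaf 2464))
(.node (.leaf 8226)
(.leaf 18738)))
(.node (.node (.leaf 6304)
(.leaf 10512))
(.node (.leaf 10290)
(.leaf 11824)))))
(.node (.node (.node (.node (.node (.leaf 1332)
(.leaf 17920))
(.leaf 51))
(.node (.leaf 8256)
(.leaf 18752)))
(.node (.node (.node (.leaf 1587)
(.leaf 1541))
(.leaf 8480))
(.node (.leaf 10241)
(.leaf 9792))))
(.node (.node (.node (.node (.leaf 4240)
(.leaf 17970))
(.leaf 4480))
(.node (.leaf 8225)
(.leaf 20768)))
(.node (.node (.leaf 6322)
(.leaf 12672))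
(.node (.leaf 10369)
(.leaf 15904)))))))
(.node (.node (.node (.node (.node (.node (.node (.leaf 128)
(.leaf 15874))
(.leaf 10401))
(.node (.leaf 6321)
(.leaf 12720)))
(.node (.node (.node (.leaf 4288)
(.leaf 264))
(.leaf 4528))
(.node (.leaf 10240)
(.leaf 20802))))
(.node (.node (.node (.node (.leaf 1299)
(.leaf 17968))
(.leaf 2448))
(.node (.leaf 8210)
(.leaf 18722)))
(.node (.node (.leaf 6288)
(.leaf 10496))
(.node (.leaf 10274)
(.leaf 11808)))))
(.node (.node (.node (.node (.node (.leaf 1316)
(.leaf 15938))
(.leaf 35))
(.node (.leaf 8240)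
(.leaf 12738)))
(.node (.node (.node (.leaf 1571)
(.leaf 1287))
(.leaf 8464))
(.node (.leaf 10304)
(.leaf 9776))))
(.node (.node (.node (.node (.leaf 4224)
(.leaf 17954))
(.leaf 2498))
(.node (.leaf 8209)
(.leaf 20752)))
(.node (.node (.leaf 6306)
(.leaf 10560))
(.node (.leaf 10305)
(.leaf 15888))))))
(.node (.node (.node (.node (.node (.node (.leaf 1284)
(.leaf 15906))
(.leaf 3))
(.node (.leaf 8208)
(.leaf 12706)))
(.node (.node (.node (.leaf 1539)
(.leaf 1285))
(.leaf 4546))
(.node (.leaf 10272)
(.leaf 9744))))
(.node (.node (.node (.node (.leaf 1331)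
(.leaf 17922))
(.leaf 2480))
(.node (.leaf 8242)
(.leaf 18753)))
(.node (.node (.leaf 6320)
(.leaf 10528))
(.node (.leaf 10306)
(.leaf 11840)))))
(.node (.node (.node (.node (.node (.leaf 1348)
(.leaf 17936))
(.leaf 67))
(.node (.leaf 8193)
(.leaf 18690)))
(.node (.node (.node (.leaf 1603)
(.leaf 1544))
(.leaf 8496))
(.node (.leaf 10242)
(.leaf 11776))))
(.node (.node (.node (.node (.leaf 4256)
(.leaf 17986))
(.leaf 4496))
(.node (.leaf 8241)
(.leaf 20784)))
(.node (.node (.leaf 6338)
(.leaf 12688))
(.node (.leaf 10434)
(.leaf 15920))))))))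

/-- The clauses. -/
noncomputable def table : Table :=
(.node (.node (.node (.node (.node (.node (.node (.node (.node (.leaf 1638604)
(.leaf 295))
(.leaf 294))
(.node (.leaf 5701708)
(.leaf 21110936790433869)))
(.node (.node (.leaf 18743430)
(.leaf 2))
(.node (.leaf 608751280281249579151)
(.leaf 691500155037))))
(.node (.node (.node (.leaf 1936936557137359470735)
(.leaf 1638438))
(.node (.leaf 197057841673684555309056292)
(.leaf 291)))
(.node (.node (.leaf 211565172873366741180285220)
(.leaf 284101828871777670539444528))
(.node (.leaf 211565209766854888599388452)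
(.leaf 52917729429356785)))))
(.node (.node (.node (.node (.node (.leaf 737908043622525305132)
(.leaf 9896085))
(.leaf 608751280272659644559))
(.node (.leaf 10485790)
(.leaf 58)))
(.node (.node (.leaf 10944678)
(.leaf 209147321234137482830872868))
(.node (.leaf 14942224)
(.leaf 43))))
(.node (.node (.node (.leaf 182550547367490516856930596)
(.leaf 13238340))
(.node (.leaf 221236763900539304390230308)
(.leaf 202)))
(.node (.node (.leaf 7667818)
(.leaf 20547978247077965))
(.node (.leaf 15466572)
(.leaf 764520955973))))))
(.node (.node (.node (.node (.node (.node (.leaf 3407878)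
(.leaf 198))
(.leaf 1383526353497874038927))
(.node (.leaf 12320876)
(.leaf 9288807377207331)))
(.node (.node (.leaf 7405670)
(.leaf 15597746))
(.node (.leaf 211565209767417838552809764)
(.leaf 68399454443471095))))
(.node (.node (.node (.leaf 11796650)
(.leaf 2752522))
(.node (.leaf 17301598)
(.leaf 45)))
(.node (.node (.leaf 2949182)
(.leaf 11822541728645420))
(.node (.leaf 1383525790547920617615)
(.leaf 1189718261866)))))
(.node (.node (.node (.node (.leaf 8912904)
(.leaf 9175052))
(.node (.leaf 17170524)
(.leaf 32)))
(.node (.node (.leaf 1014585279488294715535)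
(.leaf 293773419898950233749389616))
(.node (.leaf 13631598)
(.leaf 63332629981364394))))
(.node (.node (.node (.leaf 17236222)
(.leaf 223654652433819660112167204))
(.node (.leaf 13762682)
(.leaf 212)))
(.node (.node (.leaf 141)
(.leaf 154))
(.node (.leaf 18678036)
(.leaf 1048645)))))))
(.node (.node (.node (.node (.node (.node (.node (.leaf 17957108)
(.leaf 204))
(.leaf 18481282))
(.node (.leaf 481043480695)
(.leaf 168)))
(.node (.node (.leaf 13893698)
(.leaf 15990888))
(.node (.leaf 1900043068989940367503)
(.leaf 29555314942738539))))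
(.node (.node (.node (.leaf 3634063470970181451965)
(.leaf 16384230))
(.node (.leaf 1346632302400501514383)
(.leaf 39)))
(.node (.node (.leaf 284101865765828767911969072)
(.leaf 811696145834450485548))
(.node (.leaf 17694960)
(.leaf 77969376009322765)))))
(.node (.node (.node (.node (.node (.leaf 223654615539768562739642660)
(.leaf 29))
(.leaf 13041858))
(.node (.leaf 12058798)
(.leaf 53)))
(.node (.node (.leaf 11927724)
(.leaf 1936937120095902826639))
(.node (.leaf 14418102)
(.leaf 4150567238587546730682))))
(.node (.node (.node (.leaf 774802094728487895340)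
(.leaf 1309984882990))
(.node (.leaf 2424868)
(.leaf 59)))
(.node (.node (.leaf 369373282393)
(.leaf 9288807377338403))
(.node (.leaf 17105148)
(.leaf 764520562923))))))
(.node (.node (.node (.node (.node (.node (.leaf 3670050)
(.leaf 27))
(.leaf 15073350))
(.node (.leaf 144)
(.leaf 50)))
(.node (.node (.leaf 1383526353506463973519)
(.leaf 281683977232548412190032176))
(.node (.leaf 18874384)
(.leaf 10))))
(.node (.node (.node (.leaf 15859814)
(.leaf 4128826))
(.node (.leaf 13172932)
(.leaf 14)))
(.node (.node (.leaf 13107266)
(.leaf 64))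
(.node (.leaf 5)
(.leaf 764520693989)))))
(.node (.node (.node (.node (.leaf 3146030)
(.leaf 498224791679))
(.node (.leaf 5109825515208685060365)
(.leaf 19071266)))
(.node (.node (.leaf 139)
(.leaf 201866150192))
(.node (.leaf 16253116)
(.leaf 63332629981364405))))
(.node (.node (.node (.leaf 14287018)
(.leaf 3997752))
(.node (.leaf 360783216729)
(.leaf 194)))
(.node (.node (.leaf 3)
(.leaf 52))
(.node (.leaf 848590196940413075756)
(.leaf 298))))))))
(.node (.node (.node (.node (.node (.node (.node (.node (.leaf 14680250)
(.leaf 26))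
(.leaf 4150580186453657714905))
(.node (.leaf 14876898)
(.leaf 4519520697513284141360)))
(.node (.node (.leaf 17367296)
(.leaf 17498370))
(.node (.leaf 137)
(.leaf 48695905421426865))))
(.node (.node (.node (.leaf 296191308431667639517905200)
(.leaf 14287028))
(.node (.leaf 10616982)
(.leaf 3412699164334406434817)))
(.node (.node (.leaf 9371804)
(.leaf 2818108))
(.node (.leaf 11665486)
(.leaf 5109801026146976727146)))))
(.node (.node (.node (.node (.node (.leaf 16777452)
(.leaf 159))
(.leaf 3538976))
(.node (.leaf 16974074)
(.leaf 55)))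
(.node (.node (.leaf 3080256)
(.leaf 1936937120087312892047))
(.node (.leaf 10748056)
(.leaf 1442092))))
(.node (.node (.node (.leaf 14549176)
(.leaf 1258444488994))
(.node (.leaf 8388731)
(.leaf 196)))
(.node (.node (.leaf 352192495705)
(.leaf 4519520134554740785456))
(.node (.leaf 14418092)
(.leaf 11665664))))))
(.node (.node (.node (.node (.node (.node (.leaf 3929215879817882173655)
(.leaf 36))
(.leaf 296191308432230589471326512))
(.node (.leaf 13435096)
(.leaf 12)))
(.node (.node (.leaf 489634726015)
(.leaf 1284214685991))
(.node (.leaf 18809110)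
(.leaf 41))))
(.node (.node (.node (.leaf 12583060)
(.leaf 4063246))
(.node (.leaf 7012476)
(.leaf 67)))
(.node (.node (.leaf 5046370)
(.leaf 48))
(.node (.leaf 18612356)
(.leaf 18153660)))))
(.node (.node (.node (.node (.leaf 16646378)
(.leaf 16515304))
(.node (.leaf 306)
(.leaf 3932225)))
(.node (.node (.leaf 977691791340875612303)
(.leaf 15335498))
(.node (.leaf 17039440)
(.leaf 4150567238458697646266))))
(.node (.node (.node (.leaf 4740885004149059158265)
(.leaf 201866019120))
(.node (.leaf 489634201719)
(.leaf 200)))
(.node (.node (.leaf 377963348057)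
(.leaf 21110928200499277))
(.node (.leaf 506814857343)
(.leaf 16)))))))
(.node (.node (.node (.node (.node (.node (.node (.leaf 284101865765265817958547760)
(.leaf 38))
(.leaf 18134127104988659243745578))
(.node (.leaf 301)
(.leaf 166)))
(.node (.node (.leaf 18546962)
(.leaf 18284814))
(.node (.leaf 10158234)
(.leaf 29555314942869611))))
(.node (.node (.node (.leaf 5570634)
(.leaf 135))
(.node (.leaf 12451986)
(.leaf 61)))
(.node (.node (.leaf 14549166)
(.leaf 11259583185158444))
(.node (.leaf 1704232)
(.leaf 1189718261861)))))
(.node (.node (.node (.node (.node (.leaf 17563664)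
(.leaf 0))
(.leaf 7274596))
(.node (.leaf 182550547368053466810351908)
(.leaf 34)))
(.node (.node (.leaf 5898337)
(.leaf 17432672))
(.node (.leaf 14024772)
(.leaf 4150567238458696925366))))
(.node (.node (.node (.leaf 12189872)
(.leaf 289))
(.node (.leaf 296191271538179492098801968)
(.leaf 65)))
(.node (.node (.leaf 5439560)
(.leaf 28992356399382635))
(.node (.leaf 16121962)
(.leaf 11665658))))))
(.node (.node (.node (.node (.node (.node (.leaf 13500604)
(.leaf 158))
(.leaf 3080360))
(.node (.leaf 5308486)
(.leaf 8)))
(.node (.node (.leaf 14680240)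
(.leaf 194639990034455296959643940))
(.node (.leaf 18350206)
(.leaf 66147611679457517))))
(.node (.node (.node (.leaf 424281024751436103980)
(.leaf 257702297663))
(.node (.leaf 15728740)
(.leaf 214)))
(.node (.node (.leaf 15204424)
(.leaf 156))
(.node (.leaf 223654652433256710158745892)
(.leaf 11665660)))))
(.node (.node (.node (.node (.leaf 266292363327)
(.leaf 3276804))
(.node (.leaf 17826034)
(.leaf 303)))
(.node (.node (.leaf 481044529279)
(.leaf 10354716))
(.node (.leaf 13304006)
(.leaf 966379241659))))
(.node (.node (.node (.leaf 18415888)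
(.leaf 3866678))
(.node (.leaf 7536744)
(.leaf 65584661726036205)))
(.node (.node (.leaf 18088182)
(.leaf 197570068780))
(.node (.leaf 7864443)
(.leaf 300)))))))))

private lemma core0 {C : Cover} {τ : Bool → ℝ} (hg : Good C ctx τ) (hy : Hyp C ctx τ)
    (h : SatBelow (renum (Val C ctx τ) vars) table 0) :
    SatBelow (renum (Val C ctx τ) vars) table 179 :=
  satBelow_of_coreFrom hg hy vars table [.limit 1 6 true 4 5,
    .exact 1 5 1 10 false 3,
    .exact 6 5 6 8 false 2,
    .quadTwo 6 4 false 4 1,
    .exact 0 0 0 3 true 1,
    .only 1 9 false 4,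
    .exact 0 2 0 3 true 3,
    .exact 1 5 1 9 false 4,
    .pair 5 0 6 0 0,
    .exact 6 4 6 7 false 3,
    .quadTwo 1 5 false 4 2,
    .openFar 6 7 false 4 5,
    .openAdj 5 0 0,
    .exact 6 4 6 7 false 2,
    .given 19,
    .regularPair 3 true true 3,
    .quadTwo 0 5 false 4 2,
    .quadTwo 6 5 false 4 1,
    .some 1 6 true,
    .sampleSome 0 4 false 2,
    .exact 1 4 1 5 false 0,
    .exact 1 1 1 6 true 1,
    .exact 0 5 6 5 false 1,
    .atLeast 5 2 [0, 1, 2, 3],
    .quadTwo 1 1 true 4 1,
    .exact 1 5 1 10 false 2,
    .pair 5 0 6 1 1,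
    .exact 1 4 1 5 false 3,
    .sampleSome 6 7 false 2,
    .some 6 7 false,
    .exact 1 4 1 10 false 0,
    .sampleSome 6 8 false 1,
    .rates 6 8 false 0 5 true 3,
    .sampleSome 6 7 false 3,
    .rates 1 9 false 0 3 true 2,
    .sampleSome 6 8 false 2,
    .sampleSome 0 5 false 1,
    .regularPair 5 true false 1,
    .quadTwo 0 4 false 4 0,
    .exact 1 4 1 10 false 3,
    .sampleSome 1 2 true 4,
    .limit 0 3 true 4 6,
    .exact 1 4 1 5 false 1,
    .regular 4 false false 4,
    .quadTwo 0 3 true 4 2,
    .quadTwo 0 3 true 4 3,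
    .rootM 2,
    .regularPair 5 true false 0,
    .quadTwo 1 4 false 4 2,
    .limit 1 1 true 4 0,
    .quadTwo 6 4 false 4 0,
    .exact 1 4 1 10 false 2,
    .limit 0 3 true 3 6,
    .allSample 0 4 false 4,
    .rates 1 6 true 0 3 true 2,
    .exact 0 4 6 4 false 1,
    .sampleSome 0 5 false 3,
    .regularPair 4 false false 0,
    .regularPair 4 false false 2,
    .sampleSome 0 4 false 1,
    .rootM 3,
    .regularPair 4 false false 3,
    .given 2,
    .exact 6 5 6 8 false 3,
    .sampleSome 0 4 false 3,
    .sampleSome 1 10 false 4,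
    .regularPair 5 false false 0,
    .given 20,
    .exact 0 5 1 5 false 4,
    .allSample 1 9 false 4,
    .rootM 4,
    .sampleSome 0 4 false 0,
    .exact 0 2 1 2 true 1,
    .sampleSome 6 7 false 0,
    .exact 1 4 1 5 false 2,
    .quadTwo 1 1 true 4 0,
    .rates 6 7 false 0 4 false 1,
    .noTriple 6,
    .some 6 8 false,
    .exact 6 5 6 8 false 1,
    .quadTwo 1 2 true 4 2,
    .exact 1 1 1 2 true 2,
    .quadTwo 0 4 false 4 3,
    .exact 1 1 1 6 true 0,
    .rates 6 7 false 0 4 false 2,
    .allSample 0 5 false 4,
    .sampleSome 1 6 true 3,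
    .exact 0 5 6 5 false 0,
    .quadTwo 1 5 false 4 3,
    .regular 5 false true 4,
    .sampleSome 0 2 true 4,
    .quadTwo 6 5 false 4 2,
    .rates 1 9 false 0 5 false 1,
    .regularPair 5 false false 1,
    .regularPair 4 false false 1,
    .sampleSome 0 5 false 2,
    .quadTwo 0 2 true 4 0,
    .rootM 1,
    .quadTwo 0 5 false 4 3,
    .sampleSome 1 1 true 4,
    .quadTwo 1 4 false 4 0,
    .sampleSome 6 8 false 4,
    .openFar 6 8 false 4 5,
    .rates 6 8 false 0 5 true 0,
    .openFar 1 10 false 4 5,
    .exact 1 1 1 2 true 3,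
    .exact 1 5 1 10 false 1,
    .rates 1 9 false 0 3 true 3,
    .rates 1 9 false 0 5 false 0,
    .rates 6 7 false 0 4 false 0,
    .exact 1 5 6 5 false 4,
    .sampleSome 1 6 true 4,
    .quadTwo 1 4 false 4 1,
    .exact 0 4 1 4 false 4,
    .exact 6 5 6 8 false 0,
    .given 18,
    .quadTwo 0 4 false 4 2,
    .rates 6 8 false 0 5 true 2,
    .given 3,
    .quadTwo 1 5 false 4 1,
    .exact 0 4 6 4 false 3,
    .exact 1 4 1 10 false 1,
    .sampleSome 6 7 false 1,
    .exact 0 5 6 5 false 3,
    .sampleSome 6 8 false 3,
    .regularPair 5 true false 3,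
    .pair 5 0 6 3 3,
    .regular 5 false false 4,
    .noTriple 1,
    .some 1 10 false,
    .rates 6 8 false 0 5 true 1,
    .inside 5,
    .quadTwo 0 4 false 4 1,
    .quadTwo 6 5 false 4 0,
    .exact 0 4 6 4 false 0,
    .limit 1 2 true 4 6,
    .quadTwo 0 2 true 4 1,
    .exact 0 2 0 3 true 2,
    .sampleSome 1 6 true 2,
    .sampleSome 0 5 false 0,
    .openAdj 5 0 2,
    .exact 6 4 6 7 false 1,
    .regularPair 5 true false 2,
    .exact 0 0 0 3 true 0,
    .limit 0 2 true 4 5,
    .exact 1 5 1 10 false 0,
    .exact 6 4 6 7 false 0,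
    .rootM 0,
    .openAdj 5 6 1,
    .openFar 0 3 true 3 5,
    .sampleSome 0 3 true 4,
    .regularPair 3 true true 2,
    .rates 1 6 true 0 3 true 3,
    .nodeKinds 1,
    .nodeKinds 6,
    .given 8,
    .quadTwo 1 5 false 4 0,
    .atLeast 6 0 [0, 4],
    .sampleSome 0 3 true 3,
    .sampleSome 0 3 true 2,
    .given 13,
    .sampleSome 6 7 false 4,
    .exact 0 5 6 5 false 2,
    .sampleSome 6 8 false 0,
    .exact 1 4 6 4 false 4,
    .kinds 5,
    .quadTwo 6 4 false 4 3,
    .quadTwo 1 2 true 4 3,
    .quadTwo 1 4 false 4 3,
    .quadTwo 0 5 false 4 1,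
    .quadTwo 0 5 false 4 0,
    .rates 6 7 false 0 4 false 3,
    .quadTwo 6 5 false 4 3,
    .exact 0 4 6 4 false 2,
    .atLeast 6 0 [1, 4],
    .exact 0 2 1 2 true 0,
    .quadTwo 6 4 false 4 2,
    .limit 0 3 true 2 6,
    .pair 5 0 6 2 2] 0 h (by decide +kernel)

private lemma step0 {v : ℕ → Prop} (h : SatBelow v table 179) :
    SatBelow v table 268 :=
  satBelow_of_checkFrom table [9,
    27,
    983108,
    2752694,
    3276871,
    5439559,
    6029494,
    6357063,
    6488135,
    6553784,
    7667783,
    327799,
    8323133,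
    8716359,
    8782006,
    8913078,
    2687171,
    8978503,
    9240623,
    9437247,
    852116,
    9896119,
    830159497657638650057,
    848606241731348201673,
    458954,
    9044171,
    9961655,
    10092673,
    665725042756,
    13566108,
    10289361,
    678616760528,
    10420426,
    3473620,
    68731470036,
    9830612,
    7078102,
    10027222,
    5701849,
    10485963,
    13500635,
    2293980,
    3604700,
    9109726,
    717271466192,
    47288637911531729,
    725860024529,
    11141191,
    11206727,
    743041269968,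
    751631204560,
    9765094,
    760221139152,
    11665627,
    768814415919,
    17695207512171207094500179855389796401313,
    251093743483565831894605197791316358178874249710521524748449,
    50188522998023694223221683177689830881233927689669866699898290337,
    916465378062898343453402459805930846728824716280436244938913,
    53479663923182482699144455058125395119155450103405013011893649569,
    3936201579356743455451764137113562951343134856831548098689928131576017,
    976158781679907189171630249056600272,
    13438870023290360473633703200929648793808730596047218828449987879501969395220611780169299194911409963216,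
    168744149210260609766862264355275933749998683120458984652169161013008979429046511347728278300393543,
    136612780814261362348366061750151095180123435903188184514027055075734113751772692551,
    168747049966896760437977263880518708900326668214270653150247059556114254908370830448922230132113616,
    69417316633420124809681384484604207677516968040383179993670946045060432895097392246579322012135669942305470619210530605204588560522350919698123323078731148099800,
    1051509500226669189713279883953402020309507899179754796543901200154695,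
    387030079523328690344293869016736754537556027245644798224454816160321294416272031952,
    90113891357455960321402884513846593948748444433499716897505058559953862864,
    19396926634228727790220527470868862949132879648973485737104434434757914191308287861194960,
    326871398037758274117359562328561472832775451029577355032477085957017174224,
    395778433564116449339313287841673936601976432155084903459567539612609282162,
    565634094811474333093611646190801449683273528553402692208286112649053279172290965896384943021446525740470712057322221131189439561936,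
    121753957229445597849133989752437572944360638793874651188912141873693273702012443084266369717663800159013607121393754213417485289713622068262994128,
    159582469447530048377061630,
    535297511835529792351020231439365923721707731,
    712981283072,
    7602433,
    65794,
    9502978,
    7340291,
    5964036,
    55451446598762758,
    11534599,
    27769021754265636557480103889003600085838022181087,
    90175253010789549909975504126803692290209,
    52636696831656198,
    313550045451] 179 h (by decide +kernel)

/-- No family and samples fit this configuration. -/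
theorem refuted {C : Cover} {τ : Bool → ℝ} (hg : Good C ctx τ) (hy : Hyp C ctx τ) : False := by
  have h : SatBelow (renum (Val C ctx τ) vars) table 0 := fun j hj => absurd hj (Nat.not_lt_zero j)
  replace h := core0 hg hy h
  replace h := step0 h
  exact false_of_empty vars table (n := 267) h (by decide +kernel)

end Vale.Agent.P032.Cert.SameSix
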