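import Vale.Agent.P032.Cert.Clauses

/-!
P032: computer-generated certificate `SameTwo`: 164 clauses with reasons and 76 propagation steps.
-/

namespace Vale.Agent.P032.Cert.SameTwo

set_option maxRecDepth 20000

/-- The configuration. -/
def ctx : Ctx where
  root := .quad
  pts := [⟨36, 0, 0, 0⟩,
    ⟨-18, 0, -18, 0⟩,
    ⟨18, 0, -18, 0⟩,
    ⟨-15, 3, -15, -1⟩,
    ⟨15, 3, -15, 1⟩,
    ⟨0, 0, -36, 0⟩,
    ⟨-33, 3, -33, -1⟩,
    ⟨-3, 3, -33, 1⟩,
    ⟨0, 6, -30, 0⟩]
  given := [[neg (vS 0 0 false 4)],
    [neg (vS 0 0 true 4)],
    [pos (vS 0 0 true 0)],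
    [pos (vS 0 0 true 1)],
    [neg (vS 0 0 true 2)],
    [neg (vS 0 0 true 3)],
    [neg (vS 0 0 false 0)],
    [pos (vS 0 0 false 2)],
    [pos (vN 1)],
    [pos (vM 1 0)],
    [pos (vM 1 1)],
    [pos (vM 1 2)],
    [pos (vM 1 3)],
    [neg (vM 1 4)],
    [neg (vN 1), neg (vM 1 4)],
    [neg (vN 2), neg (vM 2 4)],
    [neg (vN 3), neg (vM 3 4)],
    [neg (vN 4), neg (vM 4 4)],
    [neg (vN 5), neg (vM 5 4)],
    [neg (vN 6), neg (vM 6 4)],
    [pos (vN 2)]]

/-- The numbered statements. -/
noncomputable def vars : Table :=
(.node (.node (.node (.node (.node (.node (.node (.node (.leaf 259)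
(.leaf 16960))
(.leaf 6400))
(.node (.leaf 6192)
(.leaf 2720)))
(.node (.node (.leaf 145)
(.leaf 12562))
(.node (.leaf 8256)
(.leaf 8720))))
(.node (.node (.node (.node (.leaf 323)
(.leaf 1541))
(.leaf 8496))
(.node (.leaf 6161)
(.leaf 4800)))
(.node (.node (.leaf 4240)
(.leaf 14656))
(.node (.leaf 8337)
(.leaf 10944)))))
(.node (.node (.node (.node (.node (.leaf 291)
(.leaf 265))
(.leaf 6464))
(.node (.leaf 6162)
(.leaf 4736)))
(.node (.node (.leaf 1571)
(.leaf 14592))
(.node (.leaf 8242)
(.leaf 10880))))
(.node (.node (.node (.leaf 129)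
(.leaf 12576))
(.node (.leaf 8192)
(.leaf 6688)))
(.node (.node (.leaf 4290)
(.leaf 14642))
(.node (.leaf 19)
(.leaf 16896))))))
(.node (.node (.node (.node (.node (.node (.leaf 275)
(.leaf 261))
(.leaf 6432))
(.node (.leaf 6145)
(.leaf 2752)))
(.node (.node (.leaf 1539)
(.leaf 12594))
(.node (.leaf 8210)
(.leaf 8752))))
(.node (.node (.node (.node (.leaf 128)
(.leaf 1543))
(.leaf 12544))
(.node (.leaf 6193)
(.leaf 6656)))
(.node (.node (.leaf 4272)
(.leaf 14610))
(.node (.leaf 8369)
(.leaf 10898)))))
(.node (.node (.node (.node (.node (.leaf 307)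
(.leaf 520))
(.leaf 8464))
(.node (.leaf 6194)
(.leaf 4768)))
(.node (.node (.leaf 1603)
(.leaf 14624))
(.node (.leaf 8321)
(.leaf 10912))))
(.node (.node (.node (.leaf 146)
(.leaf 12608))
(.node (.leaf 8224)
(.leaf 6720)))
(.node (.node (.leaf 6160)
(.leaf 2688))
(.node (.leaf 51)
(.leaf 16928)))))))
(.node (.node (.node (.node (.node (.node (.node (.leaf 1540)
(.leaf 16962))
(.leaf 6416))
(.node (.leaf 6208)
(.leaf 2736)))
(.node (.node (.leaf 579)
(.leaf 12578))
(.node (.leaf 8194)
(.leaf 8736))))
(.node (.node (.node (.node (.leaf 1604)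
(.leaf 1542))
(.leaf 8512))
(.node (.leaf 6177)
(.leaf 4802)))
(.node (.node (.leaf 4256)
(.leaf 14594))
(.node (.leaf 8353)
(.leaf 10882)))))
(.node (.node (.node (.node (.node (.leaf 1572)
(.leaf 517))
(.leaf 8448))
(.node (.leaf 6178)
(.leaf 4752)))
(.node (.node (.leaf 1587)
(.leaf 14608))
(.node (.leaf 8257)
(.leaf 10896))))
(.node (.node (.node (.leaf 130)
(.leaf 12592))
(.node (.leaf 8208)
(.leaf 6704)))
(.node (.node (.leaf 6144)
(.leaf 14658))
(.node (.leaf 35)
(.leaf 16912))))))
(.node (.node (.node (.node (.node (.node (.leaf 1556)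
(.leaf 264))
(.leaf 6448))
(.node (.leaf 6146)
(.leaf 2754)))
(.node (.node (.leaf 1555)
(.leaf 12610))
(.node (.leaf 8226)
(.leaf 8768))))
(.node (.node (.node (.leaf 144)
(.leaf 12560))
(.node (.leaf 6209)
(.leaf 6672)))
(.node (.node (.leaf 4288)
(.leaf 14626))
(.node (.leaf 3)
(.leaf 10946)))))
(.node (.node (.node (.node (.node (.leaf 1588)
(.leaf 521))
(.leaf 8480))
(.node (.leaf 6210)
(.leaf 4784)))
(.node (.node (.leaf 4224)
(.leaf 14640))
(.node (.leaf 8386)
(.leaf 10928))))
(.node (.node (.node (.leaf 194)
(.leaf 12546))
(.node (.leaf 8240)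
(.leaf 8704)))
(.node (.node (.leaf 6176)
(.leaf 2704))
(.node (.leaf 67)
(.leaf 16944))))))))

/-- The clauses. -/
noncomputable def table : Table :=
(.node (.node (.node (.node (.node (.node (.node (.node (.leaf 14549060)
(.leaf 15073500))
(.node (.leaf 4445732595301358436585)
(.leaf 236)))
(.node (.node (.leaf 22969867276935314771476756)
(.leaf 5))
(.node (.leaf 11927666)
(.leaf 232))))
(.node (.node (.node (.leaf 272)
(.leaf 184502343814599016726))
(.node (.leaf 10813596)
(.leaf 18859411858587800)))
(.node (.node (.leaf 8257552)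
(.leaf 16))
(.leaf 16121890))))
(.node (.node (.node (.node (.leaf 4915264)
(.leaf 15204450))
(.node (.leaf 5242967)
(.leaf 19)))
(.node (.node (.leaf 1199056097968061087871)
(.leaf 48))
(.node (.leaf 9830530)
(.leaf 256))))
(.node (.node (.node (.leaf 128851181599)
(.leaf 5046338))
(.node (.leaf 4653116)
(.leaf 1235970415581584097409)))
(.node (.node (.leaf 123)
(.leaf 198))
(.leaf 175296844874161276503261448)))))
(.node (.node (.node (.node (.node (.leaf 1715572813460127416447)
(.leaf 125))
(.node (.leaf 1752466864566089875583)
(.leaf 278)))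
(.node (.node (.leaf 15925482)
(.leaf 29))
(.node (.leaf 172878993234932018153849096)
(.leaf 225))))
(.node (.node (.node (.leaf 8912962)
(.leaf 2359564))
(.node (.leaf 276848163271936577603043598)
(.leaf 979267027170)))
(.node (.node (.leaf 10682522)
(.leaf 2752790))
(.leaf 14811352))))
(.node (.node (.node (.node (.leaf 16384214)
(.leaf 4391000))
(.node (.leaf 16384224)
(.leaf 178)))
(.node (.node (.leaf 11534482)
(.leaf 17629452))
(.node (.leaf 309242167375)
(.leaf 213))))
(.node (.node (.node (.leaf 10747988)
(.leaf 4784190))
(.node (.leaf 128)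
(.leaf 996441849948)))
(.node (.node (.leaf 23)
(.leaf 33))
(.leaf 121))))))
(.node (.node (.node (.node (.node (.node (.leaf 12189814)
(.leaf 14680278))
(.node (.leaf 6881376)
(.leaf 8)))
(.node (.node (.leaf 6357100)
(.leaf 266))
(.node (.leaf 250251426299340717591560462)
(.leaf 222))))
(.node (.node (.node (.leaf 1752466301607546519679)
(.leaf 8323272))
(.node (.leaf 10616914)
(.leaf 38562625864532027)))
(.node (.node (.leaf 13)
(.leaf 17367303))
(.leaf 261))))
(.node (.node (.node (.node (.leaf 274430311632707319253631246)
(.leaf 276848200165987674975568142))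
(.node (.leaf 1199055535018107666559)
(.leaf 260)))
(.node (.node (.leaf 1752466864557499940991)
(.leaf 1638431))
(.node (.leaf 16646362)
(.leaf 218))))
(.node (.node (.node (.leaf 119)
(.leaf 3014930))
(.node (.leaf 1769494)
(.leaf 10158302)))
(.node (.node (.leaf 2949178)
(.leaf 32))
(.leaf 1163953766668)))))
(.node (.node (.node (.node (.node (.leaf 1900568)
(.leaf 977691228382332125311))
(.node (.leaf 15990810)
(.leaf 274)))
(.node (.node (.leaf 12124336)
(.leaf 12))
(.node (.leaf 2949368)
(.leaf 216))))
(.node (.node (.node (.leaf 10092678)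
(.leaf 160789550568530196594491656))
(.node (.leaf 262340868966305497694273806)
(.leaf 4003008485663795380480)))
(.node (.node (.leaf 175296881767649423922364680)
(.leaf 36))
(.leaf 9))))
(.node (.node (.node (.node (.leaf 16646372)
(.leaf 267))
(.node (.leaf 12255410)
(.leaf 158)))
(.node (.node (.leaf 250251426299903667544981774)
(.leaf 4))
(.node (.leaf 9437278)
(.leaf 224))))
(.node (.node (.node (.leaf 10420374)
(.leaf 455274201199))
(.node (.leaf 10879062)
(.leaf 15204497)))
(.node (.node (.leaf 16515298)
(.leaf 246))
(.leaf 1)))))))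
(.node (.node (.node (.node (.node (.node (.node (.leaf 6488154)
(.leaf 258289883067980710166))
(.node (.leaf 14942426)
(.leaf 234)))
(.node (.node (.leaf 8519740)
(.leaf 8650814))
(.node (.leaf 9961604)
(.leaf 14549125))))
(.node (.node (.node (.leaf 12320788)
(.leaf 317832888399))
(.node (.leaf 21)
(.leaf 1235970415564403966017)))
(.node (.node (.leaf 235744058206170384301228302)
(.leaf 3473463))
(.leaf 120260722719))))
(.node (.node (.node (.node (.leaf 13631542)
(.leaf 7340139))
(.node (.leaf 3735608)
(.leaf 188)))
(.node (.node (.leaf 393224)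
(.leaf 17733185529643075))
(.node (.leaf 264758757499585853416210702)
(.leaf 253))))
(.node (.node (.node (.leaf 11796590)
(.leaf 13041862))
(.node (.leaf 15728836)
(.leaf 38562643044401215)))
(.node (.node (.leaf 13369536)
(.leaf 212))
(.leaf 4740885004149059158265)))))
(.node (.node (.node (.node (.node (.leaf 131076)
(.leaf 163207402207759454943904008))
(.node (.leaf 6750302)
(.leaf 45)))
(.node (.node (.leaf 326422954063)
(.leaf 50))
(.node (.leaf 429503873135)
(.leaf 252))))
(.node (.node (.node (.leaf 335013019727)
(.leaf 446684135535))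
(.node (.leaf 264758757499022903462789390)
(.leaf 4003008485663795380474)))
(.node (.node (.leaf 264758720605534756043686158)
(.leaf 200))
(.leaf 110714804561217323286))))
(.node (.node (.node (.node (.leaf 14549130)
(.leaf 10551448))
(.node (.leaf 438094069871)
(.leaf 258)))
(.node (.node (.leaf 940797740234913022079)
(.leaf 8592425238))
(.node (.leaf 2896182448850929647765)
(.leaf 230))))
(.node (.node (.node (.leaf 3276824)
(.leaf 11403408))
(.node (.leaf 3145750)
(.leaf 15204496)))
(.node (.node (.leaf 12058740)
(.leaf 25))
(.leaf 11010068))))))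
(.node (.node (.node (.node (.node (.node (.leaf 15204500)
(.leaf 8781888))
(.node (.leaf 8126476)
(.leaf 263)))
(.node (.node (.leaf 16974082)
(.leaf 9306204))
(.node (.leaf 17039380)
(.leaf 228))))
(.node (.node (.node (.leaf 16515288)
(.leaf 11993262))
(.node (.leaf 1114324)
(.leaf 665729958110)))
(.node (.node (.leaf 13500468)
(.leaf 269))
(.leaf 175296881768212373875785992))))
(.node (.node (.node (.node (.leaf 10944670)
(.leaf 163207439101247602363007240))
(.node (.leaf 16187634)
(.leaf 168)))
(.node (.node (.leaf 13238462)
(.leaf 1689373848895766))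
(.node (.leaf 16777446)
(.leaf 219))))
(.node (.node (.node (.leaf 16056556)
(.leaf 163207439101810552316428552))
(.node (.leaf 10223752)
(.leaf 416621265042)))
(.node (.node (.leaf 1189723963665)
(.leaf 210))
(.leaf 36927265307835629846)))))
(.node (.node (.node (.node (.node (.leaf 9568352)
(.leaf 1138183569670))
(.node (.leaf 9175130)
(.leaf 275)))
(.node (.node (.leaf 11862188)
(.leaf 27))
(.node (.leaf 276848200165424725022146830)
(.leaf 250))))
(.node (.node (.node (.leaf 10485830)
(.leaf 1199056097976651022463))
(.node (.leaf 16777436)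
(.leaf 979267682525)))
(.node (.node (.leaf 15597762)
(.leaf 18296144073130051))
(.leaf 3265122959910555549865))))
(.node (.node (.node (.node (.leaf 793221535811062006038)
(.leaf 13828306))
(.node (.leaf 11141260)
(.leaf 43629278534697090)))
(.node (.node (.leaf 11272334)
(.leaf 541168763158))
(.node (.leaf 1114144)
(.leaf 0))))
(.node (.node (.node (.leaf 6619228)
(.leaf 18))
(.node (.leaf 1162162046870688563327)
(.leaf 15204443)))
(.node (.node (.leaf 11731114)
(.leaf 244))
(.leaf 233326206566941125951815950))))))))

private lemma core0 {C : Cover} {τ : Bool → ℝ} (hg : Good C ctx τ) (hy : Hyp C ctx τ)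
    (h : SatBelow (renum (Val C ctx τ) vars) table 0) :
    SatBelow (renum (Val C ctx τ) vars) table 164 :=
  satBelow_of_coreFrom hg hy vars table [.exact 0 3 2 3 false 4,
    .sampleSome 0 4 false 0,
    .rates 1 7 false 0 4 true 3,
    .exact 1 4 2 4 false 4,
    .quadTwo 0 4 false 4 3,
    .openAdj 6 1 0,
    .sampleSome 0 0 true 1,
    .exact 0 4 1 4 false 3,
    .sampleSome 0 3 false 2,
    .exact 0 2 2 2 true 3,
    .quadTwo 2 4 false 4 3,
    .sampleSome 1 6 false 4,
    .exact 2 3 2 8 false 0,
    .exact 1 3 2 3 false 4,
    .exact 2 4 2 8 false 2,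
    .atLeast 6 2 [0, 1, 2, 3],
    .noTriple 2,
    .openFar 1 7 false 4 6,
    .quadTwo 0 4 false 4 2,
    .exact 2 3 2 8 false 1,
    .exact 0 3 1 3 false 3,
    .regularPair 3 false false 3,
    .exact 1 3 1 6 false 2,
    .rates 1 6 false 0 3 false 0,
    .regularPair 0 true true 1,
    .rates 1 7 false 0 4 true 0,
    .rootM 0,
    .sampleSome 2 5 true 1,
    .rates 1 6 false 0 3 false 2,
    .exact 0 0 0 2 true 1,
    .sampleSome 1 6 false 0,
    .sampleSome 0 4 false 1,
    .inside 6,
    .exact 0 3 1 3 false 0,
    .allSample 0 4 false 4,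
    .sampleSome 2 8 false 4,
    .sampleSome 2 5 true 0,
    .regularPair 3 false false 2,
    .sampleSome 1 7 false 3,
    .sampleSome 1 7 false 1,
    .quadTwo 0 3 false 4 1,
    .openAdj 6 1 1,
    .quadTwo 0 4 false 4 1,
    .exact 2 1 2 2 true 0,
    .exact 1 4 1 7 false 3,
    .quadTwo 0 2 true 4 3,
    .quadTwo 2 2 true 4 0,
    .exact 1 4 1 7 false 1,
    .openAdj 6 0 3,
    .quadTwo 2 1 true 4 2,
    .given 12,
    .exact 0 2 2 2 true 2,
    .sampleSome 1 6 false 2,
    .quadTwo 2 3 false 4 2,
    .quadTwo 1 4 false 4 1,
    .exact 2 1 2 5 true 2,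
    .rootM 2,
    .exact 2 1 2 2 true 1,
    .limit 0 2 true 4 6,
    .kinds 6,
    .given 3,
    .rates 1 7 false 0 4 true 2,
    .exact 2 4 2 8 false 1,
    .sampleSome 1 7 false 0,
    .some 2 5 true,
    .exact 2 3 2 4 false 2,
    .sampleSome 0 4 false 3,
    .openAdj 6 0 2,
    .quadTwo 0 4 false 4 0,
    .sampleSome 0 4 false 2,
    .rates 2 5 true 0 0 true 0,
    .exact 0 4 1 4 false 0,
    .regular 3 false false 4,
    .sampleSome 0 2 true 4,
    .quadTwo 0 3 false 4 2,
    .sampleSome 2 5 true 4,
    .exact 2 4 2 8 false 0,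
    .regularPair 4 true false 1,
    .sampleSome 1 7 false 4,
    .exact 1 4 1 7 false 0,
    .sampleSome 1 6 false 3,
    .given 2,
    .rates 1 6 false 0 3 false 1,
    .limit 2 2 true 4 1,
    .quadTwo 2 4 false 4 2,
    .quadTwo 2 3 false 4 1,
    .quadTwo 2 3 false 4 3,
    .exact 2 3 2 8 false 3,
    .sampleSome 0 3 false 0,
    .exact 2 1 2 5 true 3,
    .sampleSome 0 0 true 0,
    .exact 1 3 1 6 false 3,
    .rootM 4,
    .exact 0 0 0 2 true 0,
    .rates 1 6 false 0 3 false 3,
    .quadTwo 0 3 false 4 3,
    .rates 1 7 false 0 4 true 1,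
    .exact 1 3 1 6 false 1,
    .quadTwo 2 2 true 4 1,
    .openFar 2 8 false 4 6,
    .quadTwo 1 4 false 4 3,
    .regularPair 4 true false 0,
    .limit 2 5 true 4 6,
    .quadTwo 2 4 false 4 1,
    .exact 1 3 1 6 false 0,
    .quadTwo 2 3 false 4 0,
    .exact 2 3 2 8 false 2,
    .exact 2 4 2 8 false 3,
    .regularPair 3 false false 0,
    .some 1 6 false,
    .exact 0 4 1 4 false 2,
    .limit 0 0 true 4 1,
    .rates 2 5 true 0 0 true 1,
    .regularPair 0 true true 0,
    .given 8,
    .quadTwo 1 4 false 4 0,
    .exact 2 3 2 4 false 1,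
    .pair 6 0 1 1 1,
    .given 11,
    .some 1 7 false,
    .quadTwo 1 4 false 4 2,
    .some 2 8 false,
    .nodeKinds 2,
    .pair 6 0 1 0 0,
    .rootM 1,
    .openFar 1 6 false 4 6,
    .given 9,
    .quadTwo 2 1 true 4 3,
    .exact 2 3 2 4 false 3,
    .pair 6 0 1 3 3,
    .exact 2 3 2 4 false 0,
    .exact 0 3 1 3 false 2,
    .rootM 3,
    .quadTwo 1 3 false 4 2,
    .quadTwo 0 2 true 4 2,
    .nodeKinds 1,
    .exact 0 4 2 4 false 4,
    .regular 4 false true 4,
    .quadTwo 2 4 false 4 0,
    .quadTwo 1 3 false 4 1,
    .allSample 0 3 false 4,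
    .sampleSome 1 6 false 1,
    .given 20,
    .sampleSome 2 2 true 4,
    .pair 6 0 1 2 2,
    .regularPair 3 false false 1,
    .limit 2 1 true 4 0,
    .sampleSome 1 7 false 2,
    .given 15,
    .regularPair 4 true false 2,
    .quadTwo 1 3 false 4 3,
    .quadTwo 0 3 false 4 0,
    .sampleSome 0 3 false 3,
    .sampleSome 2 1 true 4,
    .given 19,
    .quadTwo 1 3 false 4 0,
    .sampleSome 0 3 false 1,
    .exact 1 4 1 7 false 2,
    .regularPair 4 true false 3,
    .given 13,
    .given 10,
    .exact 0 3 1 3 false 1,
    .noTriple 1,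
    .exact 0 4 1 4 false 1] 0 h (by decide +kernel)

private lemma step0 {v : ℕ → Prop} (h : SatBelow v table 164) :
    SatBelow v table 240 :=
  satBelow_of_checkFrom table [458813,
    1966141,
    4456505,
    5963858,
    6160466,
    6291549,
    7471272,
    118,
    8060945,
    8126491,
    393343,
    8519731,
    3211397,
    37999834831585373,
    8913011,
    11337871,
    622778056761,
    9633885,
    9765007,
    9961565,
    10092726,
    5505184,
    7340192,
    9437370,
    107384996027,
    11206843,
    7405757,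
    4653246,
    1835199,
    2425024,
    2752673,
    11731107,
    5445457690410777177990771518079428788385,
    167848448642107651803870434598254594863559783968159079644272042139774226058064789479670177255398187007344224589156823990441,
    10158278,
    257710948551,
    39898149212198924276662472,
    1179849,
    6553801,
    8257737,
    5177546,
    2359499,
    786636,
    333218279834089069315089032344942306372576267935545608598383486767676858597262532809184728967872719,
    64587208875560863032928793605724642006586358110733499846038126788,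
    784049660760665874437272840362524765,
    57848843539108900881374776208658945802400,
    1324476990832339921373628693965075649637546400311763915571407,
    11685297500586183029307342424801265859263235742560944311,
    10220535724621208457015094149303,
    10378992049649745858248582627511,
    2291649357791811109008881754056376764661132142791230094978574166982862,
    14578177748994839816009079062724,
    3478971376823270104977078508210658438447104160,
    318607557657774503469399846412257665609300125286401,
    38791948533053720524612588507314463512506705882363345631297974924484717282769596804038861,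
    118301614024267827026424004896216788108864406188589943827722360657919390078257461491011896834388563201549815194321092,
    309872507122273889507167699157850429650051216721388414501753838033806105240453537163656225407649651023270298403023941271645,
    309875816890794515076124706965675680699256417162324591217782255021356707464880385568903110259918966303153689133185966801092,
    309872507187807621736888867571461764044060405938711911023011443188772696344596694751881501758321611091264058701566781423709,
    10492667679952077802903599742555355127551841915381034653378449449573031246831222425656005697461590138796025902042521839668822212,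
    569160035397790014981332614114392875060252299342471171772901514747216772121405423812,
    4367485699883468572461170324747201323116373782613024052435260086734578706902911956659686604893,
    927727681763,
    14126670226778607917598737427983913210926586072465030902075739821119646711480548,
    4128997,
    7667941,
    188536030511562771254701031066559275135050147365091,
    191459033786224738058253127500218150939264014549219,
    2250560761834215178473,
    7012586,
    128150324355076930198044907,
    105180807568249370809991403,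
    8454380,
    8585453,
    8240004540720932172458900717807] 164 h (by decide +kernel)

/-- No family and samples fit this configuration. -/
theorem refuted {C : Cover} {τ : Bool → ℝ} (hg : Good C ctx τ) (hy : Hyp C ctx τ) : False := by
  have h : SatBelow (renum (Val C ctx τ) vars) table 0 := fun j hj => absurd hj (Nat.not_lt_zero j)
  replace h := core0 hg hy h
  replace h := step0 h
  exact false_of_empty vars table (n := 239) h (by decide +kernel)

end Vale.Agent.P032.Cert.SameTwo
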